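import Vale.Agent.P238.Params

namespace Vale.Agent.Results.P238.LowerBound

open Vale.Agent.P238

/-- The least `ℓ₁` distortion of edit distance on binary words of length `n` is at least
`exp (c * sqrt (log n * log log n))` for all large `n`. -/
theorem result : ∃ c : ℝ, 0 < c ∧ ∃ N : ℕ, ∀ n : ℕ, N ≤ n →
    Real.exp (c * Real.sqrt (Real.log n * Real.log (Real.log n))) ≤ l1Distortion (binaryED n) :=
  ⟨1 / 144, by norm_num, lower_bound⟩

end Vale.Agent.Results.P238.LowerBound
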